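import Vale.Agent.P011.D4.IF.H64.Four
import Vale.Agent.P011.D4.IF.Inv
import Vale.Agent.P011.E6.Pos3

/-!
The involutions of good quaternion subalgebras are central modulo a normal subgroup which is
transitive on the elements of order three.
-/

namespace Vale.Agent.P011.D4.IF

open Vale.Agent.P011.MPQ Vale.Agent.P011.D4 Vale.Agent.P011.D4.Oct

section grp

variable {G : Type} [Group G]

/-- Central modulo a subgroup. -/
def CenN (N : Subgroup G) (g : G) : Prop := ∀ h, h * g * h⁻¹ * g⁻¹ ∈ N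

theorem CenN.mul {N : Subgroup G} (hN : N.Normal) {g g' : G} (hg : CenN N g) (hg' : CenN N g') :
    CenN N (g * g') := by
  intro h
  have e : h * (g * g') * h⁻¹ * (g * g')⁻¹ =
      (h * g * h⁻¹ * g⁻¹) * (g * (h * g' * h⁻¹ * g'⁻¹) * g⁻¹) := by group
  rw [e]
  exact mul_mem (hg h) (hN.conj_mem _ (hg' h) _)

theorem CenN.inv {N : Subgroup G} (hN : N.Normal) {g : G} (hg : CenN N g) : CenN N g⁻¹ := by
  intro h
  have e : h * g⁻¹ * h⁻¹ * g⁻¹⁻¹ = g⁻¹ * (h * g * h⁻¹ * g⁻¹)⁻¹ * g⁻¹⁻¹ := by group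
  rw [e]
  exact hN.conj_mem _ (inv_mem (hg h)) _

end grp

section alg

variable {F : Type} [Field F] {a b c a' b' c' c'' : Fˣ}

/-- Multiplication of the second component by a quaternion. -/
def scl (q : Qt a b) (hq : nrd q ≠ 0) : Oct a b c'' ≃ₗ[F] Oct a b c where
  toFun x := ⟨x.fst, q * x.snd⟩
  invFun x := ⟨x.fst, (nrd q)⁻¹ • (star q * x.snd)⟩
  left_inv x := by
    apply Oct.ext
    · rfl
    · change (nrd q)⁻¹ • (star q * (q * x.snd)) = x.snd
      rw [q_star_mul_mul, smul_smul, inv_mul_cancel₀ hq, one_smul]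
  right_inv x := by
    apply Oct.ext
    · rfl
    · change q * ((nrd q)⁻¹ • (star q * x.snd)) = x.snd
      rw [mul_smul_comm, q_mul_star_mul, smul_smul, inv_mul_cancel₀ hq, one_smul]
  map_add' x y := by
    apply Oct.ext
    · rfl
    · exact mul_add _ _ _
  map_smul' t x := by
    apply Oct.ext
    · rfl
    · exact mul_smul_comm _ _ _

theorem scl_mul {q : Qt a b} (hq : nrd q ≠ 0) (h : (c'' : F) = c * nrd q) (x y : Oct a b c'') :
    (scl q hq : Oct a b c'' ≃ₗ[F] Oct a b c) (x * y) = scl q hq x * scl q hq y := by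
  apply Oct.ext
  · change x.fst * y.fst + (c'' : F) • (star y.snd * x.snd) =
      x.fst * y.fst + (c : F) • (star (q * y.snd) * (q * x.snd))
    have e : star (q * y.snd) * (q * x.snd) = nrd q • (star y.snd * x.snd) := by
      rw [star_mul, mul_assoc, q_star_mul_mul, mul_smul_comm]
    rw [e, smul_smul, h]
  · change q * (y.snd * x.fst + x.snd * star y.fst) =
      (q * y.snd) * x.fst + (q * x.snd) * star y.fst
    rw [mul_add, mul_assoc, mul_assoc]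

theorem conjA_scl {q : Qt a b} (hq : nrd q ≠ 0) (h : (c'' : F) = c * nrd q) {s : Qt a b}
    (hs : star s * s = 1) (hs' : s * star s = 1) :
    conjA (scl q hq : Oct a b c'' ≃ₗ[F] Oct a b c) (scl_mul hq h) (shq c'' s hs hs') =
      shq c s hs hs' := by
  apply Subtype.ext
  apply LinearEquiv.ext
  intro x
  obtain ⟨y, rfl⟩ : ∃ y : Oct a b c'', (scl q hq : Oct a b c'' ≃ₗ[F] Oct a b c) y = x :=
    (scl q hq).surjective x
  change scl q hq ((shq c'' s hs hs').1 ((scl q hq).symm (scl q hq y))) =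
    (shq c s hs hs').1 (scl q hq y)
  rw [LinearEquiv.symm_apply_apply]
  apply Oct.ext
  · rfl
  · exact (mul_assoc _ _ _).symm

theorem conjA_conjA {a'' b'' : Fˣ} {Φ : Oct a' b' c' ≃ₗ[F] Oct a b c}
    (hΦ : ∀ x y, Φ (x * y) = Φ x * Φ y) {Ψ : Oct a'' b'' c'' ≃ₗ[F] Oct a' b' c'}
    (hΨ : ∀ x y, Ψ (x * y) = Ψ x * Ψ y) (g : AutC a'' b'' c'') :
    conjA Φ hΦ (conjA Ψ hΨ g) = conjA (Ψ.trans Φ) (fun x y => by
      change Φ (Ψ (x * y)) = Φ (Ψ x) * Φ (Ψ y)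
      rw [hΨ, hΦ]) g := rfl

theorem three_hom {Φ : Oct a' b' c' ≃ₗ[F] Oct a b c} (hΦ : ∀ x y, Φ (x * y) = Φ x * Φ y)
    {u : Oct a' b' c'} (h : Three u) : Three (Φ u) := by
  refine ⟨by rw [hom_norm hΦ, h.norm], ?_⟩
  rw [← hom_one hΦ, hom_bil hΦ, h.tr]

theorem conjA_Zu [NeZero (2 : F)] {Φ : Oct a' b' c' ≃ₗ[F] Oct a b c}
    (hΦ : ∀ x y, Φ (x * y) = Φ x * Φ y) {u : Oct a' b' c'} (h : Three u) :
    conjA Φ hΦ (Zu h) = Zu (three_hom hΦ h) := by
  apply Subtype.ext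
  apply LinearEquiv.ext
  intro x
  obtain ⟨y, rfl⟩ : ∃ y, Φ y = x := Φ.surjective x
  change Φ ((Zu h).1 (Φ.symm (Φ y))) = (Zu (three_hom hΦ h)).1 (Φ y)
  rw [LinearEquiv.symm_apply_apply, Zu_apply, Zu_apply, hΦ, hΦ, hom_star hΦ]

/-- The automorphism fixing a quaternion subalgebra. -/
theorem eq_conjA [NeZero (2 : F)] {i j l : Oct a b c} {Φ : Oct a' b' c' ≃ₗ[F] Oct a b c}
    (hΦ : ∀ x, Φ x = emb i j l x) (hm : ∀ x y, Φ (x * y) = Φ x * Φ y) {s : AutC a b c}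
    (hi : s.1 i = i) (hj : s.1 j = j) (hl : s.1 l = -l) {t : AutC a' b' c'}
    (ht : ∀ x, t.1 x = ⟨x.fst, -x.snd⟩) : s = conjA Φ hm t := by
  apply Subtype.ext
  apply LinearEquiv.ext
  intro x
  obtain ⟨y, rfl⟩ : ∃ y, Φ y = x := Φ.surjective x
  change s.1 (Φ y) = Φ (t.1 (Φ.symm (Φ y)))
  rw [LinearEquiv.symm_apply_apply, ht, hΦ, hΦ]
  have hq : ∀ z : Qt a' b', s.1 (qemb i j z) = qemb i j z := by
    intro z
    have hij : s.1 (i * j) = i * j := by rw [s.2, hi, hj]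
    simp only [qemb, map_add, map_smul, hij, hi, hj, aut_one]
  change s.1 (qemb i j y.fst + qemb i j y.snd * l) = qemb i j y.fst + qemb i j (-y.snd) * l
  have hn : ∀ z : Qt a' b', qemb i j (-z) = -qemb i j z := by
    intro z
    simp only [qemb, QuaternionAlgebra.re_neg, QuaternionAlgebra.imI_neg,
      QuaternionAlgebra.imJ_neg, QuaternionAlgebra.imK_neg, neg_smul]
    abel
  rw [map_add, s.2, hq, hq, hl, hn, mul_neg, neg_mul]

end alg

section four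

variable {F : Type} [Field F] [CharZero F] {a b c : Fˣ}

/-- The elements `z/z̄` are central modulo `N`. -/
theorem cen_shq (N : Subgroup (AutC a b c)) (hN : N.Normal)
    (htr : ∀ u v : Oct a b c, Three u → Three v → ∃ n ∈ N, n.1 u = v) {a' b' c' : Fˣ}
    {Φ : Oct a' b' c' ≃ₗ[F] Oct a b c} (hm : ∀ x y, Φ (x * y) = Φ x * Φ y)
    (hb : (b' : F) = -1) {m : F} (hd : 1 - a' * m ^ 2 ≠ 0) {q : Qt a' b'} (hq : nrd q ≠ 0)
    (hc : -(3 + a' * m ^ 2) / 4 = (c' : F) * nrd q) {s : Qt a' b'} (hs : star s * s = 1)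
    (hs' : s * star s = 1)
    (hsm : s = ⟨(1 + a' * m ^ 2) / (1 - a' * m ^ 2), 2 * m / (1 - a' * m ^ 2), 0, 0⟩) :
    CenN N (conjA Φ hm (shq c' s hs hs')) := by
  have hc0 : (c' : F) * nrd q ≠ 0 := mul_ne_zero c'.ne_zero hq
  obtain ⟨c'', hc''⟩ : ∃ c'' : Fˣ, (c'' : F) = c' * nrd q := ⟨Units.mk0 _ hc0, rfl⟩
  have hc1 : (c'' : F) = -(3 + a' * m ^ 2) / 4 := by rw [hc'', hc]
  have hz : ∀ {a'' b'' c'' : Fˣ} {Φ : Oct a'' b'' c'' ≃ₗ[F] Oct a b c}
      (hm : ∀ x y, Φ (x * y) = Φ x * Φ y) {u : Oct a'' b'' c''} (h : Three u),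
      CenN N (conjA Φ hm (Zu h)) := by
    intro a'' b'' c'' Φ hm u h g
    rw [conjA_Zu]
    exact Zu_comm hN htr _ _
  rw [← conjA_scl hq hc'' hs hs', conjA_conjA, ← four_eq hb hc1 hd hs hs' hsm, map_mul, map_mul,
    map_mul]
  exact ((hz _ _).mul hN (hz _ _)).mul hN ((hz _ _).mul hN (hz _ _))

end four

section num

variable {k : Type} [Field k] [NumberField k] {a b c : kˣ}

theorem exists_m (a' : kˣ) : ∃ m : k, ∀ φ : k →+* ℝ,
    1 < 3 * (|φ a'| * φ m ^ 2) ∧ |φ a'| * φ m ^ 2 < 3 := by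
  have h0 : ∀ φ : k →+* ℝ, 0 < |φ a'| := fun φ => by
    rw [abs_pos, Ne, map_eq_zero]
    exact a'.ne_zero
  have h1 : ∀ φ : k →+* ℝ, ∃ r : ℝ, 0 < r ∧ |φ a'| * r ^ 2 = 1 := fun φ => by
    refine ⟨(Real.sqrt |φ a'|)⁻¹, by have := Real.sqrt_pos.2 (h0 φ); positivity, ?_⟩
    rw [inv_pow, Real.sq_sqrt (h0 φ).le, mul_inv_cancel₀ (h0 φ).ne']
  choose r hr hr1 using h1
  have h2 : ∀ φ : k →+* ℝ, ∃ q : ℚ, r φ < q ∧ (q : ℝ) < r φ * (6 / 5) := fun φ => by
    have := hr φ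
    exact exists_rat_btwn (by linarith)
  choose q hq1 hq2 using h2
  obtain ⟨m, hm⟩ := E6.real_approx (fun φ => (q φ : k)) (fun φ => r φ / 10) (fun φ => by
    have := hr φ
    positivity)
  refine ⟨m, fun φ => ?_⟩
  have h3 := hm φ
  rw [map_ratCast, abs_lt] at h3
  have h4 := hq1 φ
  have h5 := hq2 φ
  have h6 := hr φ
  have h7 : r φ * (9 / 10) < φ m := by linarith
  have h8 : φ m < r φ * (13 / 10) := by linarith
  have h9 : (r φ * (9 / 10)) ^ 2 < φ m ^ 2 := pow_lt_pow_left₀ h7 (by positivity) two_ne_zero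
  have h10 : φ m ^ 2 < (r φ * (13 / 10)) ^ 2 :=
    pow_lt_pow_left₀ h8 (by linarith) two_ne_zero
  have h11 := mul_lt_mul_of_pos_left h9 (h0 φ)
  have h12 := mul_lt_mul_of_pos_left h10 (h0 φ)
  have h13 := hr1 φ
  constructor
  · have e : |φ a'| * (r φ * (9 / 10)) ^ 2 = (|φ a'| * r φ ^ 2) * (81 / 100) := by ring
    rw [e, h13] at h11
    linarith
  · have e : |φ a'| * (r φ * (13 / 10)) ^ 2 = (|φ a'| * r φ ^ 2) * (169 / 100) := by ring
    rw [e, h13] at h12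
    linarith

/-- Row IF-4: the involutions of good quaternion subalgebras are central modulo `N`. -/
theorem cen_of_trip (hdiv : Division a b c) (N : Subgroup (AutC a b c)) (hN : N.Normal)
    (htr : ∀ u v : Oct a b c, Three u → Three v → ∃ n ∈ N, n.1 u = v) {a' c' : kˣ}
    {i j l : Oct a b c} (ht : Trip a' (-1) c' i j l)
    (hr : ∀ φ : k →+* ℝ, ¬ (φ a < 0 ∧ φ b < 0 ∧ φ c < 0) → 0 < φ a') (s : AutC a b c)
    (hi : s.1 i = i) (hj : s.1 j = j) (hl : s.1 l = -l) (h : AutC a b c) :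
    h * s * h⁻¹ * s⁻¹ ∈ N := by
  obtain ⟨m, hm⟩ := exists_m a'
  obtain ⟨φ₀, hφ₀⟩ := exists_dfn hdiv
  have hneg : ∀ φ : k →+* ℝ, (φ a < 0 ∧ φ b < 0 ∧ φ c < 0) → φ a' < 0 ∧ φ c' < 0 := by
    intro φ hφ
    obtain ⟨h1, -, h3⟩ := E6.Dfn.trip (w := φ) hφ ht
    exact ⟨h1, h3⟩
  have hdef : ∀ φ : k →+* ℝ, φ a' < 0 → φ c' < 0 := by
    intro φ hφ
    by_contra hc
    have h1 : ¬ (φ a < 0 ∧ φ b < 0 ∧ φ c < 0) := fun h => hc (hneg φ h).2
    exact lt_asymm hφ (hr φ h1)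
  have hval : ∀ φ : k →+* ℝ, φ a' < 0 → 1 < -(3 * (φ a' * φ m ^ 2)) ∧ -(φ a' * φ m ^ 2) < 3 := by
    intro φ hφ
    obtain ⟨h1, h2⟩ := hm φ
    rw [abs_of_neg hφ] at h1 h2
    constructor <;> linarith
  have h00 := (hneg φ₀ hφ₀).1
  have hm0 : m ≠ 0 := by
    rintro rfl
    have := (hval φ₀ h00).1
    rw [map_zero] at this
    norm_num at this
  have ha0 : (a' : k) ≠ 0 := a'.ne_zero
  have hx0 : (a' : k) * m ^ 2 ≠ 0 := mul_ne_zero ha0 (pow_ne_zero 2 hm0)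
  have hd : 1 - a' * m ^ 2 ≠ 0 := by
    intro h1
    have h2 := congrArg φ₀ h1
    simp only [map_sub, map_one, map_mul, map_pow, map_zero] at h2
    have := (hval φ₀ h00).1
    linarith
  have hd' : 1 - (a' : k) * (1 / (a' * m)) ^ 2 ≠ 0 := by
    intro h1
    apply hd
    field_simp at h1
    linear_combination -h1
  obtain ⟨Φ, hΦ, hmul, -, -⟩ := exists_emb ht
  have hex : ∀ y : k, (∀ φ : k →+* ℝ, φ a' < 0 → 0 < φ (3 + y)) →
      ∃ q : Qt a' (-1), nrd q ≠ 0 ∧ -(3 + y) / 4 = (c' : k) * nrd q := by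
    intro y hy
    have hy0 : 3 + y ≠ 0 := by
      intro h1
      have := hy φ₀ h00
      rw [h1, map_zero] at this
      exact lt_irrefl _ this
    have ht0 : -(3 + y) / 4 / (c' : k) ≠ 0 :=
      div_ne_zero (div_ne_zero (neg_ne_zero.2 hy0) (by norm_num)) c'.ne_zero
    obtain ⟨q, hq⟩ := exists_nrd (a := a') (b := -1) (Units.mk0 _ ht0) (by
      intro φ h1 _
      have h2 := hdef φ h1
      have h3 := hy φ h1
      change 0 < φ (-(3 + y) / 4 / (c' : k))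
      rw [map_div₀, map_div₀, map_neg, map_ofNat]
      exact div_pos_of_neg_of_neg (by linarith) h2)
    have hq' : nrd q = -(3 + y) / 4 / (c' : k) := hq
    refine ⟨q, by rw [hq']; exact ht0, ?_⟩
    rw [hq', mul_div_cancel₀ _ c'.ne_zero]
  obtain ⟨q, hq0, hq⟩ := hex (a' * m ^ 2) (by
    intro φ h1
    have := (hval φ h1).2
    simp only [map_add, map_mul, map_pow, map_ofNat]
    linarith)
  obtain ⟨q', hq0', hq'⟩ := hex (a' * (1 / (a' * m)) ^ 2) (by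
    intro φ h1
    have h2 := (hval φ h1).1
    have e : φ (3 + a' * (1 / (a' * m)) ^ 2) = 3 + (φ a' * φ m ^ 2)⁻¹ := by
      have e1 : (a' : k) * (1 / (a' * m)) ^ 2 = (a' * m ^ 2)⁻¹ := by
        field_simp
      rw [e1]
      simp only [map_add, map_mul, map_pow, map_ofNat, map_inv₀]
    rw [e]
    have h3 : φ a' * φ m ^ 2 < 0 := by linarith
    have h4 : (φ a' * φ m ^ 2)⁻¹ * (φ a' * φ m ^ 2) = 1 := inv_mul_cancel₀ h3.ne
    nlinarith)
  let s₀ : Qt a' (-1) := ⟨(1 + a' * m ^ 2) / (1 - a' * m ^ 2), 2 * m / (1 - a' * m ^ 2), 0, 0⟩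
  have hn : nrd s₀ = 1 := by
    simp only [s₀, nrd]
    field_simp
    ring
  have hs : star s₀ * s₀ = 1 := by rw [q_star_mul, hn, map_one]
  have hs' : s₀ * star s₀ = 1 := by rw [q_mul_star, hn, map_one]
  have hns : star (-s₀) * -s₀ = 1 := by rw [star_neg, neg_mul_neg, hs]
  have hns' : -s₀ * star (-s₀) = 1 := by rw [star_neg, neg_mul_neg, hs']
  have hb : ((-1 : kˣ) : k) = -1 := by simp
  have h1 := cen_shq N hN htr hmul hb hd hq0 hq hs hs' rfl
  have hd2 : (a' : k) * m ^ 2 - 1 ≠ 0 := fun h1 => hd (by linear_combination -h1)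
  have e1 : (1 + (a' : k) * (1 / (a' * m)) ^ 2) / (1 - (a' : k) * (1 / (a' * m)) ^ 2) =
      -((1 + a' * m ^ 2) / (1 - a' * m ^ 2)) := by
    rw [div_eq_iff hd']
    field_simp
    ring
  have e2 : 2 * (1 / (a' * m)) / (1 - (a' : k) * (1 / (a' * m)) ^ 2) =
      -(2 * m / (1 - a' * m ^ 2)) := by
    rw [div_eq_iff hd']
    field_simp
    ring
  have h2 := cen_shq N hN htr hmul hb hd' hq0' hq' hns hns' (by
    rw [e1, e2]
    ext <;> simp [s₀])
  have h3 := h2.mul hN (h1.inv hN)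
  rw [← map_inv, ← map_mul] at h3
  have h4 := eq_conjA hΦ hmul hi hj hl (t := shq c' (-s₀) hns hns' * (shq c' s₀ hs hs')⁻¹) (by
    intro x
    obtain ⟨y, rfl⟩ : ∃ y, (shq c' s₀ hs hs').1 y = x := (shq c' s₀ hs hs').1.surjective x
    change (shq c' (-s₀) hns hns').1 ((shq c' s₀ hs hs').1.symm ((shq c' s₀ hs hs').1 y)) = _
    rw [LinearEquiv.symm_apply_apply, shq_apply, shq_apply]
    apply Oct.ext
    · change star (-s₀) * y.fst * -s₀ = star s₀ * y.fst * s₀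
      rw [star_neg, mul_neg, neg_mul, neg_mul, neg_neg]
    · change y.snd * -s₀ = -(y.snd * s₀)
      rw [mul_neg])
  rw [h4]
  exact h3 h

end num

end Vale.Agent.P011.D4.IF
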