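import Vale.Agent.P011.D4.IF.Zu

/-!
A product of four conjugations by elements of order three.
-/

namespace Vale.Agent.P011.D4.IF

open Vale.Agent.P011.MPQ Vale.Agent.P011.D4 Vale.Agent.P011.D4.Oct

section alg

variable {F : Type} [Field F] [CharZero F] {a b c : Fˣ}

/-- The element `-2 u₁`. -/
def w1 (a b c : Fˣ) (m : F) : Oct a b c := ⟨⟨1, m, 0, 0⟩, ⟨-2, 0, 0, 0⟩⟩

/-- The element `-2 u₃`. -/
def w3 (a b c : Fˣ) (m : F) : Oct a b c := ⟨⟨1, m, 0, 0⟩, ⟨0, 0, -2, 0⟩⟩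

/-- A multiple of `u₂`. -/
def w2 (a b c : Fˣ) (m : F) : Oct a b c :=
  ⟨⟨1 - a * m ^ 2, m - a * m ^ 3, 0, 0⟩, ⟨2 * (1 + a * m ^ 2), -4 * m, 0, 0⟩⟩

/-- A multiple of `u₄`. -/
def w4 (a b c : Fˣ) (m : F) : Oct a b c :=
  ⟨⟨1 - a * m ^ 2, m - a * m ^ 3, 0, 0⟩, ⟨0, 0, 2 * (1 + a * m ^ 2), 4 * m⟩⟩

omit [CharZero F] in
theorem w2_eq (m : F) : star (w1 a b c m) * ⟨⟨1 + a * m ^ 2, 2 * m, 0, 0⟩, 0⟩ = w2 a b c m := by
  apply ext8 <;> simp [w1, w2] <;> ring

omit [CharZero F] in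
theorem w4_eq (m : F) : star (w3 a b c m) * ⟨⟨1 + a * m ^ 2, 2 * m, 0, 0⟩, 0⟩ = w4 a b c m := by
  apply ext8 <;> simp [w3, w4] <;> ring

variable (hb : (b : F) = -1) {m : F} (hc : (c : F) = -(3 + a * m ^ 2) / 4)

include hb hc

theorem z12_gi : (w1 a b c m * ((w2 a b c m * gi) * star (w2 a b c m))) * star (w1 a b c m) =
    (16 * (1 - a * m ^ 2) ^ 2) • gi := by
  apply ext8 <;> simp [w2, w1, gi, hb, hc] <;> ring

theorem z12_gj : (w1 a b c m * ((w2 a b c m * gj) * star (w2 a b c m))) * star (w1 a b c m) =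
    (16 * (1 - a * m ^ 2)) • ⟨⟨0, 0, 1 + a * m ^ 2, -(2 * m)⟩, 0⟩ := by
  apply ext8 <;> simp [w2, w1, gj, hb, hc] <;> ring

theorem z12_gl : (w1 a b c m * ((w2 a b c m * gl) * star (w2 a b c m))) * star (w1 a b c m) =
    (16 : F) • ⟨0, ⟨(1 + a * m ^ 2) ^ 2 + 4 * a * m ^ 2, 4 * m * (1 + a * m ^ 2), 0, 0⟩⟩ := by
  apply ext8 <;> simp [w2, w1, gl, hb, hc] <;> ring

theorem z34_gi : (w3 a b c m * ((w4 a b c m * gi) * star (w4 a b c m))) * star (w3 a b c m) =
    (16 * (1 - a * m ^ 2) ^ 2) • gi := by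
  apply ext8 <;> simp [w4, w3, gi, hb, hc] <;> ring

theorem z34_gj : (w3 a b c m * ((w4 a b c m * gj) * star (w4 a b c m))) * star (w3 a b c m) =
    (16 * (1 - a * m ^ 2)) • ⟨⟨0, 0, 1 + a * m ^ 2, -(2 * m)⟩, 0⟩ := by
  apply ext8 <;> simp [w4, w3, gj, hb, hc] <;> ring

theorem z34_gl : (w3 a b c m * ((w4 a b c m * gl) * star (w4 a b c m))) * star (w3 a b c m) =
    (16 * (1 - a * m ^ 2)) • ⟨0, ⟨1 + a * m ^ 2, -(2 * m), 0, 0⟩⟩ := by
  apply ext8 <;> simp [w4, w3, gl, hb, hc] <;> ring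

/-! The elements of order three. -/

theorem three_v1 : Three ((-(1 / 2) : F) • w1 a b c m) := by
  refine ⟨?_, ?_⟩
  · simp [w1, Oct.norm, nrd, hc]
    ring
  · rw [bil_eq]
    simp [w1]

theorem three_v3 : Three ((-(1 / 2) : F) • w3 a b c m) := by
  refine ⟨?_, ?_⟩
  · simp [w3, Oct.norm, nrd, hb, hc]
    ring
  · rw [bil_eq]
    simp [w3]

variable (hd : 1 - a * m ^ 2 ≠ 0)

include hd

theorem three_v2 : Three ((-(1 / (2 * (1 - a * m ^ 2))) : F) • w2 a b c m) := by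
  refine ⟨?_, ?_⟩
  · rw [Oct.norm_smul]
    have h : Oct.norm (w2 a b c m) = 4 * (1 - a * m ^ 2) ^ 2 := by
      simp [w2, Oct.norm, nrd, hc]
      ring
    rw [h]
    field_simp
    norm_num
  · rw [bil_smul_left, bil_eq]
    simp [w2]
    field_simp

theorem three_v4 : Three ((-(1 / (2 * (1 - a * m ^ 2))) : F) • w4 a b c m) := by
  refine ⟨?_, ?_⟩
  · rw [Oct.norm_smul]
    have h : Oct.norm (w4 a b c m) = 4 * (1 - a * m ^ 2) ^ 2 := by
      simp [w4, Oct.norm, nrd, hb, hc]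
      ring
    rw [h]
    field_simp
    norm_num
  · rw [bil_smul_left, bil_eq]
    simp [w4]
    field_simp

end alg

section zu

variable {F : Type} [Field F] [CharZero F] {a b c : Fˣ}

theorem Zu_mul_apply {t₁ t₂ : F} {w v : Oct a b c} (h₁ : Three (t₁ • w)) (h₂ : Three (t₂ • v))
    (x : Oct a b c) : (Zu h₁ * Zu h₂).1 x =
      (t₁ ^ 2 * t₂ ^ 2) • ((w * ((v * x) * star v)) * star w) := by
  change ((t₁ • w) * (((t₂ • v) * x) * star (t₂ • v))) * star (t₁ • w) = _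
  rw [star_smul_oct, star_smul_oct]
  simp only [smul_mul_oct, mul_smul_oct, smul_smul]
  congr 1
  ring

/-- The automorphism `(p, t) ↦ (s⁻¹ p s, t s)` for a quaternion `s` of norm one. -/
def shq (c : Fˣ) (s : Qt a b) (hs : star s * s = 1) (hs' : s * star s = 1) : AutC a b c :=
  ⟨{ toFun := fun x => ⟨star s * x.fst * s, x.snd * s⟩
     invFun := fun x => ⟨s * x.fst * star s, x.snd * star s⟩
     left_inv := fun x => by
       apply Oct.ext
       · change s * (star s * x.fst * s) * star s = x.fst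
         calc _ = (s * star s) * x.fst * (s * star s) := by simp only [mul_assoc]
           _ = _ := by rw [hs', one_mul, mul_one]
       · change x.snd * s * star s = x.snd
         rw [mul_assoc, hs', mul_one]
     right_inv := fun x => by
       apply Oct.ext
       · change star s * (s * x.fst * star s) * s = x.fst
         calc _ = (star s * s) * x.fst * (star s * s) := by simp only [mul_assoc]
           _ = _ := by rw [hs, one_mul, mul_one]
       · change x.snd * star s * s = x.snd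
         rw [mul_assoc, hs, mul_one]
     map_add' := fun x y => by
       apply Oct.ext
       · change star s * (x.fst + y.fst) * s = star s * x.fst * s + star s * y.fst * s
         rw [mul_add, add_mul]
       · change (x.snd + y.snd) * s = x.snd * s + y.snd * s
         rw [add_mul]
     map_smul' := fun t x => by
       apply Oct.ext
       · change star s * (t • x.fst) * s = t • (star s * x.fst * s)
         rw [mul_smul_comm, smul_mul_assoc]
       · change (t • x.snd) * s = t • (x.snd * s)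
         rw [smul_mul_assoc] }, fun x y => by
    apply Oct.ext
    · change star s * (x.fst * y.fst + (c : F) • (star y.snd * x.snd)) * s =
        (star s * x.fst * s) * (star s * y.fst * s) + (c : F) • (star (y.snd * s) * (x.snd * s))
      have e : (star s * x.fst * s) * (star s * y.fst * s) = star s * (x.fst * y.fst) * s := by
        calc _ = star s * x.fst * (s * star s) * y.fst * s := by simp only [mul_assoc]
          _ = _ := by rw [hs', mul_one]; simp only [mul_assoc]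
      rw [e, mul_add, add_mul, star_mul, mul_smul_comm, smul_mul_assoc]
      simp only [mul_assoc]
    · change (y.snd * x.fst + x.snd * star y.fst) * s =
        (y.snd * s) * (star s * x.fst * s) + (x.snd * s) * star (star s * y.fst * s)
      have e : (y.snd * s) * (star s * x.fst * s) = y.snd * x.fst * s := by
        calc _ = y.snd * (s * star s) * x.fst * s := by simp only [mul_assoc]
          _ = _ := by rw [hs', mul_one]
      have e' : (x.snd * s) * star (star s * y.fst * s) = x.snd * star y.fst * s := by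
        rw [star_mul, star_mul, star_star]
        calc _ = x.snd * (s * star s) * star y.fst * s := by simp only [mul_assoc]
          _ = _ := by rw [hs', mul_one]
      rw [e, e', add_mul]⟩

theorem shq_apply (c : Fˣ) (s : Qt a b) (hs : star s * s = 1) (hs' : s * star s = 1)
    (x : Oct a b c) : (shq c s hs hs').1 x = ⟨star s * x.fst * s, x.snd * s⟩ := rfl

theorem comb {A B : AutC a b c} {P Q : F} (hPQ : P ^ 2 - a * Q ^ 2 = 1) (hb : (b : F) = -1)
    {s : Qt a b} (hs : star s * s = 1) (hs' : s * star s = 1) (hsm : s = ⟨P, Q, 0, 0⟩)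
    (a1 : A.1 gi = gi) (a2 : A.1 gj = ⟨⟨0, 0, P, -Q⟩, 0⟩)
    (a3 : A.1 gl = ⟨0, ⟨P ^ 2 + a * Q ^ 2, 2 * P * Q, 0, 0⟩⟩) (b1 : B.1 gi = gi)
    (b2 : B.1 gj = ⟨⟨P, -Q, 0, 0⟩, 0⟩ * gj) (b3 : B.1 gl = ⟨⟨P, -Q, 0, 0⟩, 0⟩ * gl) :
    A * B = shq c s hs hs' := by
  have e0 : (⟨⟨P, -Q, 0, 0⟩, 0⟩ : Oct a b c) = P • 1 + (-Q) • gi := by
    apply ext8 <;> simp [gi]
  have a4 : A.1 ⟨⟨P, -Q, 0, 0⟩, 0⟩ = ⟨⟨P, -Q, 0, 0⟩, 0⟩ := by
    rw [e0, map_add, map_smul, map_smul, a1, aut_one]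
  apply aut_ext
  · change A.1 (B.1 gi) = _
    rw [b1, a1, shq_apply, hsm]
    apply ext8 <;> simp [gi]
    · ring
    · linear_combination -hPQ
  · change A.1 (B.1 gj) = _
    rw [b2, A.2, a4, a2, shq_apply, hsm]
    apply ext8 <;> simp [gj]
  · change A.1 (B.1 gl) = _
    rw [b3, A.2, a4, a3, shq_apply, hsm]
    apply ext8 <;> simp [gl]
    · linear_combination (P) * hPQ
    · linear_combination (Q) * hPQ

theorem key_eq {d : F} (hd : d ≠ 0) :
    (-(1 / 2) : F) ^ 2 * (-(1 / (2 * d))) ^ 2 = (16 * d ^ 2)⁻¹ := by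
  field_simp
  norm_num

section vals

variable (hb : (b : F) = -1) {m : F} (hc : (c : F) = -(3 + a * m ^ 2) / 4)
    (hd : 1 - a * m ^ 2 ≠ 0)

theorem a_gi : (Zu (three_v1 hb hc) * Zu (three_v2 hb hc hd)).1 gi = gi := by
  rw [Zu_mul_apply, z12_gi hb hc, smul_smul, key_eq hd,
    inv_mul_cancel₀ (mul_ne_zero (by norm_num) (pow_ne_zero 2 hd)), one_smul]

theorem b_gi : (Zu (three_v3 hb hc) * Zu (three_v4 hb hc hd)).1 gi = gi := by
  rw [Zu_mul_apply, z34_gi hb hc, smul_smul, key_eq hd,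
    inv_mul_cancel₀ (mul_ne_zero (by norm_num) (pow_ne_zero 2 hd)), one_smul]

theorem a_gj : (Zu (three_v1 hb hc) * Zu (three_v2 hb hc hd)).1 gj =
    ⟨⟨0, 0, (1 + a * m ^ 2) / (1 - a * m ^ 2), -(2 * m / (1 - a * m ^ 2))⟩, 0⟩ := by
  rw [Zu_mul_apply, z12_gj hb hc, smul_smul, key_eq hd]
  apply ext8 <;> simp <;> field_simp

theorem b_gj : (Zu (three_v3 hb hc) * Zu (three_v4 hb hc hd)).1 gj =
    ⟨⟨(1 + a * m ^ 2) / (1 - a * m ^ 2), -(2 * m / (1 - a * m ^ 2)), 0, 0⟩, 0⟩ * gj := by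
  rw [Zu_mul_apply, z34_gj hb hc, smul_smul, key_eq hd]
  apply ext8 <;> simp [gj] <;> field_simp

theorem a_gl : (Zu (three_v1 hb hc) * Zu (three_v2 hb hc hd)).1 gl =
    ⟨0, ⟨((1 + a * m ^ 2) / (1 - a * m ^ 2)) ^ 2 + a * (2 * m / (1 - a * m ^ 2)) ^ 2,
      2 * ((1 + a * m ^ 2) / (1 - a * m ^ 2)) * (2 * m / (1 - a * m ^ 2)), 0, 0⟩⟩ := by
  rw [Zu_mul_apply, z12_gl hb hc, smul_smul, key_eq hd]
  apply ext8 <;> simp <;> field_simp <;> ring

theorem b_gl : (Zu (three_v3 hb hc) * Zu (three_v4 hb hc hd)).1 gl =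
    ⟨⟨(1 + a * m ^ 2) / (1 - a * m ^ 2), -(2 * m / (1 - a * m ^ 2)), 0, 0⟩, 0⟩ * gl := by
  rw [Zu_mul_apply, z34_gl hb hc, smul_smul, key_eq hd]
  apply ext8 <;> simp [gl] <;> field_simp

/-- A product of four conjugations by elements of order three. -/
theorem four_eq {s : Qt a b} (hs : star s * s = 1) (hs' : s * star s = 1)
    (hsm : s = ⟨(1 + a * m ^ 2) / (1 - a * m ^ 2), 2 * m / (1 - a * m ^ 2), 0, 0⟩) :
    Zu (three_v1 hb hc) * Zu (three_v2 hb hc hd) * (Zu (three_v3 hb hc) *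
      Zu (three_v4 hb hc hd)) = shq c s hs hs' := by
  refine comb ?_ hb hs hs' hsm (a_gi hb hc hd) (a_gj hb hc hd) (a_gl hb hc hd) (b_gi hb hc hd)
    (b_gj hb hc hd) (b_gl hb hc hd)
  field_simp
  ring

end vals

end zu

end Vale.Agent.P011.D4.IF
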